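import Vale.Agent.P163.Lattice

open Vale.Agent.P163

namespace Vale.Agent.Results.P163.AlgebraicDecayLinearInN

/-- Two point functions of the two dimensional O(n) model decay at least like the power
`(n - 1) / (8 β)` of the distance, uniformly in finite free and periodic volumes. -/
theorem result (n : ℕ) (hn : 2 ≤ n) (β : ℝ) (hβ : 0 < β) :
    ∃ C : ℝ,
      (∀ (Λ : Finset (ℤ × ℤ)) (x y : ↥Λ), x ≠ y →
        |corr n β (freeBonds Λ) x y| ≤ C * eDist x y ^ (-(((n : ℝ) - 1) / (8 * β)))) ∧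
      (∀ (L : ℕ) [NeZero L] (u v : ℤ × ℤ), u ≠ v →
        2 * (v.1 - u.1).natAbs ≤ L → 2 * (v.2 - u.2).natAbs ≤ L →
        |corr n β (torusBonds L) (proj L u) (proj L v)| ≤
          C * eDist u v ^ (-(((n : ℝ) - 1) / (8 * β)))) :=
  algebraic_decay n hn β hβ

end Vale.Agent.Results.P163.AlgebraicDecayLinearInN
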