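import Vale.Agent.P163.Gap.States

/-!
Mass generation for the two dimensional O(n) model: exponential decay at every temperature.
-/

open MeasureTheory Vale.Agent.P163 Vale.Agent.P163.Gap

namespace Vale.Agent.Results.P163.MassGap

/-- Question 2: for every n at least three and every inverse temperature the two point function
decays exponentially in every infinite volume state and uniformly in finite volumes. -/
theorem result : ∀ (n : ℕ), 3 ≤ n → ∀ (β : ℝ), 0 < β → ∃ C m : ℝ, 0 < m ∧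
      (∀ μ : Measure (ℤ × ℤ → Sph n), IsState n β μ → ∀ x y : ℤ × ℤ,
        |∫ σ, inner ℝ (σ x : Vec n) (σ y : Vec n) ∂μ| ≤ C * Real.exp (-(m * eDist x y))) ∧
      (∀ (Λ : Finset (ℤ × ℤ)) (x y : ↥Λ),
        |corr n β (freeBonds Λ) x y| ≤ C * Real.exp (-(m * eDist x y))) ∧
      (∀ (L : ℕ) [NeZero L] (u v : ℤ × ℤ),
        2 * (v.1 - u.1).natAbs ≤ L → 2 * (v.2 - u.2).natAbs ≤ L →
        |corr n β (torusBonds L) (proj L u) (proj L v)| ≤ C * Real.exp (-(m * eDist u v))) ∧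
      ∃ L₀ : ℕ, ∀ (L₁ L₂ : ℕ) [NeZero L₁] [NeZero L₂] (u v : ℤ × ℤ), L₀ ≤ L₁ → L₀ ≤ L₂ →
        2 * (v.1 - u.1).natAbs ≤ L₁ → 2 * (v.2 - u.2).natAbs ≤ L₂ →
        |corr n β (rectBonds L₁ L₂) ((u.1 : ZMod L₁), (u.2 : ZMod L₂))
          ((v.1 : ZMod L₁), (v.2 : ZMod L₂))| ≤ C * Real.exp (-(m * eDist u v)) :=
  mass_gap_states

end Vale.Agent.Results.P163.MassGap
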